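import Vale.Agent.P247.H399.Prod
import Vale.Agent.P247.H447.E5.Sta

/-!
# Composition with smooth maps with bounded derivatives; the statements of `H447/E5/Sta.lean`
-/

namespace Vale.Agent.P247.H399.Emb

open MeasureTheory Filter Topology Set
open Vale.Agent.P363.R.Sob
open Vale.Agent.P247.H74 (R4 e)
open Vale.Agent.P247.H306 (LL Sob)
open scoped ContDiff ENNReal NNReal

set_option linter.unusedSectionVars false
set_option linter.style.haveILetI false

noncomputable section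

/-- all derivatives of order at least `k` are bounded -/
def BD {V U : Type*} [NormedAddCommGroup V] [NormedSpace ℝ V] [NormedAddCommGroup U]
    [NormedSpace ℝ U] (k : ℕ) (Φ : V → U) : Prop :=
  ∀ n : ℕ, k ≤ n → ∃ C : ℝ, ∀ y, ‖iteratedFDeriv ℝ n Φ y‖ ≤ C

theorem BD.fderiv {V U : Type*} [NormedAddCommGroup V] [NormedSpace ℝ V] [NormedAddCommGroup U]
    [NormedSpace ℝ U] {k : ℕ} {Φ : V → U} (h : BD (k + 1) Φ) : BD k (fderiv ℝ Φ) := by
  intro n hn
  obtain ⟨C, hC⟩ := h (n + 1) (by omega)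
  refine ⟨C, fun y => ?_⟩
  rw [norm_iteratedFDeriv_fderiv]
  exact hC y

theorem BD.bound_zero {V U : Type*} [NormedAddCommGroup V] [NormedSpace ℝ V]
    [NormedAddCommGroup U] [NormedSpace ℝ U] {Φ : V → U} (h : BD 0 Φ) :
    ∃ C : ℝ, ∀ y, ‖Φ y‖ ≤ C := by
  obtain ⟨C, hC⟩ := h 0 le_rfl
  exact ⟨C, fun y => by simpa using hC y⟩

theorem BD.bound_fderiv {V U : Type*} [NormedAddCommGroup V] [NormedSpace ℝ V]
    [NormedAddCommGroup U] [NormedSpace ℝ U] {Φ : V → U} (h : BD 1 Φ) :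
    ∃ C : ℝ, ∀ y, ‖_root_.fderiv ℝ Φ y‖ ≤ C := by
  obtain ⟨C, hC⟩ := h 1 le_rfl
  refine ⟨C, fun y => ?_⟩
  have := hC y
  rwa [norm_iteratedFDeriv_one] at this

/-- a bounded continuous function of a locally square integrable one, times an `L²_loc` one -/
theorem ll_bdd_bilin {V U H X : Type*} [NormedAddCommGroup V] [NormedSpace ℝ V]
    [NormedAddCommGroup U] [NormedSpace ℝ U]
    [NormedAddCommGroup H] [NormedSpace ℝ H]
    [NormedAddCommGroup X] [NormedSpace ℝ X]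
    (b : U →L[ℝ] H →L[ℝ] X) {Φ : V → U} (hΦ : Continuous Φ) {C : ℝ} (hC : ∀ y, ‖Φ y‖ ≤ C)
    {f : R4 → V} {h : R4 → H} (hf : LL 2 f) (hh : LL 2 h) : LL 2 fun x => b (Φ (f x)) (h x) := by
  intro K hK
  have h1 : MemLp (fun x => Φ (f x)) ⊤ (volume.restrict K) :=
    memLp_top_of_bound (hΦ.comp_aestronglyMeasurable (hf K hK).1) C
      (Eventually.of_forall fun x => hC _)
  exact b.memLp_of_bilin 2 h1 (hh K hK)

/-- the bilinear map `(v, h) ↦ (L ↦ b (L v) h)` -/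
theorem exists_tau {V U H X : Type*} [NormedAddCommGroup V] [NormedSpace ℝ V]
    [NormedAddCommGroup U] [NormedSpace ℝ U]
    [NormedAddCommGroup H] [NormedSpace ℝ H]
    [NormedAddCommGroup X] [NormedSpace ℝ X]
    (b : U →L[ℝ] H →L[ℝ] X) : ∃ τ : V →L[ℝ] H →L[ℝ] ((V →L[ℝ] U) →L[ℝ] X),
      ∀ v h L, τ v h L = b (L v) h := by
  refine ⟨LinearMap.mkContinuous₂ (LinearMap.mk₂ ℝ
          (fun v h => ((b.flip h).comp (ContinuousLinearMap.apply ℝ U v) :
            (V →L[ℝ] U) →L[ℝ] X))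
          (fun v v' h => by ext L; simp) (fun c v h => by ext L; simp)
          (fun v h h' => by ext L; simp) (fun c v h => by ext L; simp)) ‖b‖ (fun v h => by
            simp only [LinearMap.mk₂_apply]
            refine ContinuousLinearMap.opNorm_le_bound _ (by positivity) fun L => ?_
            simp only [ContinuousLinearMap.comp_apply, ContinuousLinearMap.apply_apply,
              ContinuousLinearMap.flip_apply]
            calc ‖b (L v) h‖ ≤ ‖b‖ * ‖L v‖ * ‖h‖ := b.le_opNorm₂ _ _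
              _ ≤ ‖b‖ * (‖L‖ * ‖v‖) * ‖h‖ := by gcongr; exact L.le_opNorm v
              _ = ‖b‖ * ‖v‖ * ‖h‖ * ‖L‖ := by ring), fun v h L => by simp⟩

theorem exists_tau' (V U H X : Type) [NormedAddCommGroup V] [NormedSpace ℝ V]
    [FiniteDimensional ℝ V] [NormedAddCommGroup U] [NormedSpace ℝ U] [FiniteDimensional ℝ U]
    [NormedAddCommGroup H] [NormedSpace ℝ H] [FiniteDimensional ℝ H]
    [NormedAddCommGroup X] [NormedSpace ℝ X] [FiniteDimensional ℝ X]
    (b : U →L[ℝ] H →L[ℝ] X) : ∃ (T : Type) (_ : NormedAddCommGroup T) (_ : NormedSpace ℝ T)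
      (_ : FiniteDimensional ℝ T) (τ : V →L[ℝ] H →L[ℝ] T) (ev : (V →L[ℝ] U) →L[ℝ] T →L[ℝ] X),
      ∀ v h L, ev L (τ v h) = b (L v) h := by
  obtain ⟨τ, hτ⟩ := exists_tau (V := V) b
  refine ⟨(V →L[ℝ] U) →L[ℝ] X, inferInstance, inferInstance, inferInstance, τ,
    (ContinuousLinearMap.id ℝ ((V →L[ℝ] U) →L[ℝ] X)).flip, fun v h L => ?_⟩
  simp [hτ]

theorem comp_key (j : ℕ) : ∀ (V U H X : Type) [NormedAddCommGroup V] [NormedSpace ℝ V]
    [FiniteDimensional ℝ V] [NormedAddCommGroup U] [NormedSpace ℝ U] [FiniteDimensional ℝ U]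
    [NormedAddCommGroup H] [NormedSpace ℝ H] [FiniteDimensional ℝ H]
    [NormedAddCommGroup X] [NormedSpace ℝ X] [FiniteDimensional ℝ X]
    (b : U →L[ℝ] H →L[ℝ] X) (Φ : V → U), ContDiff ℝ ∞ Φ → BD 0 Φ →
    ∀ (f : R4 → V) (h : R4 → H), Sob (j + 1) f → Sob j h → Sob j fun x => b (Φ (f x)) (h x) := by
  induction j with
  | zero =>
    intro V U H X _ _ _ _ _ _ _ _ _ _ _ _ b Φ hΦ hB f h hf hh
    obtain ⟨C, hC⟩ := hB.bound_zero
    exact ll_bdd_bilin b hΦ.continuous hC hf.ll hh.ll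
  | succ j ih =>
    intro V U H X _ _ _ _ _ _ _ _ _ _ _ _ b Φ hΦ hB f h hf hh
    haveI : CompleteSpace V := FiniteDimensional.complete ℝ V
    haveI : CompleteSpace U := FiniteDimensional.complete ℝ U
    haveI : CompleteSpace X := FiniteDimensional.complete ℝ X
    obtain ⟨C, hC⟩ := hB.bound_zero
    have hB1 : BD 1 Φ := fun n _ => hB n (Nat.zero_le n)
    obtain ⟨C1, hC1⟩ := hB1.bound_fderiv
    refine ⟨ll_bdd_bilin b hΦ.continuous hC hf.ll hh.ll, fun l => ?_⟩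
    obtain ⟨f', f1, f2⟩ := (H306.sob_succ.1 hf).2 l
    obtain ⟨h', h1, h2⟩ := (H306.sob_succ.1 hh).2 l
    have Lf := ll_locallyIntegrable (by norm_num) hf.ll
    have Lf' := ll_locallyIntegrable (by norm_num) f2.ll
    have hΦd : ContDiff ℝ ∞ (fderiv ℝ Φ) := hΦ.fderiv_right (by simp)
    have W1 : IsWD volume (e l) (fun x => Φ (f x)) (fun x => fderiv ℝ Φ (f x) (f' x)) :=
      f1.comp_contDiff Lf Lf' (hΦ.of_le (by simp)) C1 hC1
    have l1 : LL 2 fun x => Φ (f x) := by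
      intro K hK
      haveI : IsFiniteMeasure ((volume : Measure R4).restrict K) := ⟨by
        rw [Measure.restrict_apply_univ]; exact hK.measure_lt_top⟩
      exact MemLp.of_bound (hΦ.continuous.comp_aestronglyMeasurable (hf.ll K hK).1) C
        (Eventually.of_forall fun x => hC _)
    have l2 : LL 2 fun x => fderiv ℝ Φ (f x) (f' x) :=
      ll_bdd_bilin (ContinuousLinearMap.id ℝ (V →L[ℝ] U)) hΦd.continuous hC1 hf.ll f2.ll
    refine ⟨_, isWD_bilin b l1 l2 hh.ll h2.ll W1 h1, sob_add ?_ ?_⟩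
    · -- `b (DΦ(f) f') h = (τ (f', h)) (DΦ(f))`
      obtain ⟨T, _, _, _, τ, ev, hτ⟩ := exists_tau' V U H X b
      have hp : Sob j fun x => τ (f' x) (h x) :=
        sob_bilin (i := j + 1) (j := j + 1) (m := j) τ f2 hh (by omega) (by omega) (by omega)
      have h3 := ih V (V →L[ℝ] U) T X ev (fderiv ℝ Φ) hΦd hB1.fderiv
        f (fun x => τ (f' x) (h x)) (H306.Sob.mono (show j + 1 ≤ j + 1 + 1 by omega) hf) hp
      refine sob_congr h3 (Eventually.of_forall fun x => ?_)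
      simp only [hτ]
    · exact ih V U H X b Φ hΦ hB f h' (H306.Sob.mono (show j + 1 ≤ j + 1 + 1 by omega) hf) h2

/-- composition -/
theorem comp_sob {V W : Type} [NormedAddCommGroup V] [NormedSpace ℝ V]
    [FiniteDimensional ℝ V] [NormedAddCommGroup W] [NormedSpace ℝ W] [FiniteDimensional ℝ W]
    {Φ : V → W} (hΦ : ContDiff ℝ ∞ Φ) (hB : BD 1 Φ) {k : ℕ} {f : R4 → V} (hk : 1 ≤ k)
    (hf : Sob k f) : Sob k fun x => Φ (f x) := by
  haveI : CompleteSpace V := FiniteDimensional.complete ℝ V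
  haveI : CompleteSpace W := FiniteDimensional.complete ℝ W
  obtain ⟨j, rfl⟩ : ∃ j, k = j + 1 := ⟨k - 1, by omega⟩
  obtain ⟨C1, hC1⟩ := hB.bound_fderiv
  have hΦd : ContDiff ℝ ∞ (fderiv ℝ Φ) := hΦ.fderiv_right (by simp)
  have hlip : ∀ y, ‖Φ y‖ ≤ ‖Φ 0‖ + C1 * ‖y‖ := by
    intro y
    have h1 : ‖Φ y - Φ 0‖ ≤ C1 * ‖y - 0‖ :=
      Convex.norm_image_sub_le_of_norm_fderiv_le (fun x _ => hΦ.differentiable (by simp) x)
        (fun x _ => hC1 x) convex_univ (Set.mem_univ _) (Set.mem_univ _)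
    rw [sub_zero] at h1
    calc ‖Φ y‖ = ‖Φ 0 + (Φ y - Φ 0)‖ := by congr 1; abel
      _ ≤ _ := (norm_add_le _ _).trans (add_le_add le_rfl h1)
  refine ⟨?_, fun l => ?_⟩
  · intro K hK
    haveI : IsFiniteMeasure ((volume : Measure R4).restrict K) := ⟨by
      rw [Measure.restrict_apply_univ]; exact hK.measure_lt_top⟩
    have h1a : MemLp (fun _ : R4 => ‖Φ 0‖) 2 (volume.restrict K) := memLp_const _
    have h1b : MemLp (fun x : R4 => C1 * ‖f x‖) 2 (volume.restrict K) :=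
      ((hf.ll K hK).norm).const_mul C1
    have h1 := h1a.add h1b
    refine MemLp.mono h1 (hΦ.continuous.comp_aestronglyMeasurable (hf.ll K hK).1)
      (Eventually.of_forall fun x => ?_)
    have h2 := hlip (f x)
    have h3 : ‖Φ 0‖ + C1 * ‖f x‖ ≤ ‖‖Φ 0‖ + C1 * ‖f x‖‖ := Real.le_norm_self _
    exact h2.trans h3
  · obtain ⟨f', f1, f2⟩ := hf.2 l
    have Lf := ll_locallyIntegrable (by norm_num) hf.ll
    have Lf' := ll_locallyIntegrable (by norm_num) f2.ll
    refine ⟨fun x => fderiv ℝ Φ (f x) (f' x),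
      f1.comp_contDiff Lf Lf' (hΦ.of_le (by simp)) C1 hC1, ?_⟩
    exact comp_key j V (V →L[ℝ] W) V W (ContinuousLinearMap.id ℝ (V →L[ℝ] W)) (fderiv ℝ Φ) hΦd
      hB.fderiv f f' hf f2

open Vale.Agent.P247.H447.E5

theorem GNS : GNS_statement := fun _ _ _ _ _ h => sob_ll4 h

theorem SMOOTH : SMOOTH_statement := fun _ _ _ _ _ h => sob_exists_smooth h

theorem PROD : PROD_statement := fun _ _ _ _ _ _ _ _ _ _ _ _ b _ _ _ _ _ hf hg hi hj h =>
  sob_bilin b hf hg hi hj (Or.inl h)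

theorem COMP : COMP_statement := fun _ _ _ _ _ _ _ _ _ hΦ hB _ _ hk hf =>
  comp_sob hΦ hB hk hf

end

end Vale.Agent.P247.H399.Emb
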