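import Vale.Agent.P247.H399.Morrey
import Vale.Agent.P247.H306.SobDef

/-!
# Sobolev embeddings on `ℝ⁴` and smooth representatives

`Sob 1 ⊂ L⁴`, `Sob 2 ⊂ L¹²`, `Sob 3 ⊂ C⁰`, `Sob (n + 3) ⊂ Cⁿ`, `⋂ Sob k ⊂ C^∞` (local spaces).
-/

namespace Vale.Agent.P247.H399.Emb

open MeasureTheory Filter Topology Set
open Vale.Agent.P363.R.Sob
open Vale.Agent.P247.H74 (R4 e)
open Vale.Agent.P247.H306 (LL Sob)
open scoped ContDiff ENNReal NNReal Pointwise

set_option linter.unusedSectionVars false
set_option linter.style.haveILetI false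

noncomputable section

section general

variable {E : Type*} [NormedAddCommGroup E] [NormedSpace ℝ E] [FiniteDimensional ℝ E]
  [MeasurableSpace E] [BorelSpace E]
variable {F : Type*} [NormedAddCommGroup F] [NormedSpace ℝ F] [FiniteDimensional ℝ F]
variable {μ : Measure E} [μ.IsAddHaarMeasure]

/-- mollifications converge in `L^p` on compact sets -/
theorem tendsto_moll_locp {p : ℝ≥0∞} (hp1 : 1 ≤ p) (hp : p ≠ ⊤) {f : E → F} (hf : LocLp μ p f)
    {K : Set E} (hK : IsCompact K) :
    Tendsto (fun n => eLpNorm (moll μ (stdBump n) f - f) p (μ.restrict K)) atTop (𝓝 0) := by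
  haveI : CompleteSpace F := FiniteDimensional.complete ℝ F
  haveI := FiniteDimensional.proper ℝ E
  have hK' : IsCompact (Metric.cthickening 1 K) := hK.cthickening
  set f' : E → F := (Metric.cthickening 1 K).indicator f with hf'
  have hfi : MemLp f' p μ :=
    (memLp_indicator_iff_restrict hK'.isClosed.measurableSet).2 (hf _ hK')
  haveI : Fact ((1 : ℝ≥0∞) ≤ p) := ⟨hp1⟩
  have h1 := tendsto_moll_std (μ := μ) (p := p) hp hfi
  refine tendsto_of_tendsto_of_tendsto_of_le_of_le tendsto_const_nhds h1 (fun _ => zero_le)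
    fun n => ?_
  refine le_trans (le_of_eq ?_) (eLpNorm_mono_measure _ (Measure.restrict_le_self (s := K)))
  refine eLpNorm_congr_ae ?_
  filter_upwards [ae_restrict_mem hK.isClosed.measurableSet] with x hx
  have hxK : x ∈ Metric.cthickening 1 K := Metric.self_subset_cthickening K hx
  have hb : ∀ y ∈ Metric.ball x (stdBump n : ContDiffBump (0 : E)).rOut, f y = f' y := by
    intro y hy
    have hy1 : dist y x < 1 := lt_of_lt_of_le (Metric.mem_ball.1 hy) (stdBump_rOut_le n)
    have : y ∈ Metric.cthickening 1 K :=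
      Metric.mem_cthickening_of_dist_le y x 1 K hx hy1.le
    rw [hf', Set.indicator_of_mem this]
  simp only [Pi.sub_apply]
  rw [moll_congr_on _ hb, hf', Set.indicator_of_mem hxK]

/-- mollifications of a continuous function converge locally uniformly -/
theorem moll_tendstoLocally {f : E → F} (hf : Continuous f) :
    TendstoLocallyUniformly (fun n => moll μ (stdBump n) f) f atTop := by
  haveI : CompleteSpace F := FiniteDimensional.complete ℝ F
  haveI := FiniteDimensional.proper ℝ E
  rw [← tendstoLocallyUniformlyOn_univ, tendstoLocallyUniformlyOn_iff_forall_isCompact isOpen_univ]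
  intro K _ hK
  have hK' : IsCompact (Metric.cthickening 1 K) := hK.cthickening
  have huc : UniformContinuousOn f (Metric.cthickening 1 K) :=
    hK'.uniformContinuousOn_of_continuous hf.continuousOn
  rw [Metric.tendstoUniformlyOn_iff]
  intro ε hε
  obtain ⟨δ, hδ, hδ'⟩ := Metric.uniformContinuousOn_iff.1 huc (ε / 2) (by positivity)
  have h1 : ∀ᶠ n in atTop, (stdBump n : ContDiffBump (0 : E)).rOut < δ :=
    tendsto_stdBump_rOut.eventually (gt_mem_nhds hδ)
  filter_upwards [h1] with n hn x hx
  have h2 : dist (moll μ (stdBump n) f x) (f x) ≤ ε / 2 := by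
    refine ContDiffBump.dist_normed_convolution_le hf.aestronglyMeasurable fun y hy => ?_
    have hy1 : dist y x < 1 := lt_of_lt_of_le (Metric.mem_ball.1 hy) (stdBump_rOut_le n)
    exact (hδ' y (Metric.mem_cthickening_of_dist_le y x 1 K hx hy1.le) x
      (Metric.self_subset_cthickening K hx) ((Metric.mem_ball.1 hy).trans hn)).le
  rw [dist_comm]
  linarith

end general

variable {F : Type*} [NormedAddCommGroup F] [NormedSpace ℝ F] [FiniteDimensional ℝ F]

/-- the standard basis of `ℝ⁴` -/
abbrev bas : Module.Basis (Fin 4) ℝ R4 := Pi.basisFun ℝ (Fin 4)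

theorem bas_apply (i : Fin 4) : bas i = e i := by
  simp [bas, e, Pi.basisFun_apply]

/-- GNS on `ℝ⁴` for compactly supported functions with square integrable weak gradient -/
theorem gns4 : ∃ C : ℝ≥0, ∀ (f : R4 → F) (g : Fin 4 → R4 → F), LocallyIntegrable f volume →
    HasCompactSupport f → (∀ i, MemLp (g i) 2 volume) → (∀ i, IsWD volume (e i) f (g i)) →
      MemLp f 4 volume ∧ eLpNorm f 4 volume ≤ C * ∑ i, eLpNorm (g i) 2 volume := by
  obtain ⟨C, hC⟩ := gns (F := F) (μ := (volume : Measure R4)) bas (p := 2) (p' := 4)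
    (by norm_num) (by simp) (by
      simp only [Module.finrank_fintype_fun_eq_card, Fintype.card_fin]
      norm_num)
  refine ⟨C, fun f g hf hc hg h => ?_⟩
  have := hC f g hf hc (by simpa using hg) (fun i => by rw [bas_apply]; exact h i)
  simpa using this

/-- local GNS on `ℝ⁴`, `p = 2` -/
theorem ll_four {f : R4 → F} {g : Fin 4 → R4 → F} (hf : LL 2 f) (hg : ∀ i, LL 2 (g i))
    (h : ∀ i, IsWD volume (e i) f (g i)) : LL 4 f := by
  have := gns_loc (μ := (volume : Measure R4)) bas (p := 2) (p' := 4) (f := f) (g := g)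
    (by norm_num) (by simp) (by
      simp only [Module.finrank_fintype_fun_eq_card, Fintype.card_fin]
      norm_num) (by simpa [LL, LocLp] using hf) (by simpa [LL, LocLp] using hg)
    (fun i => by rw [bas_apply]; exact h i)
  simpa [LL, LocLp] using this

/-- local GNS on `ℝ⁴`, `p = 3` -/
theorem ll_twelve {f : R4 → F} {g : Fin 4 → R4 → F} (hf : LL 3 f) (hg : ∀ i, LL 3 (g i))
    (h : ∀ i, IsWD volume (e i) f (g i)) : LL 12 f := by
  have := gns_loc (μ := (volume : Measure R4)) bas (p := 3) (p' := 12) (f := f) (g := g)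
    (by norm_num) (by simp) (by
      simp only [Module.finrank_fintype_fun_eq_card, Fintype.card_fin]
      norm_num) (by simpa [LL, LocLp] using hf) (by simpa [LL, LocLp] using hg)
    (fun i => by rw [bas_apply]; exact h i)
  simpa [LL, LocLp] using this

theorem ll_mono {f : R4 → F} {p q : ℝ≥0∞} (h : LL q f) (hpq : p ≤ q) : LL p f :=
  LocLp.mono (μ := volume) h hpq

theorem ll_locallyIntegrable {f : R4 → F} {p : ℝ≥0∞} (hp : 1 ≤ p) (h : LL p f) :
    LocallyIntegrable f volume :=
  LocLp.locallyIntegrable (μ := volume) hp h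

theorem ll_congr {f f' : R4 → F} {p : ℝ≥0∞} (h : LL p f) (hf : f =ᵐ[volume] f') : LL p f' :=
  fun K hK => (h K hK).ae_eq (ae_restrict_of_ae hf)

theorem sob_congr {f f' : R4 → F} {k : ℕ} (h : Sob k f) (hf : f =ᵐ[volume] f') : Sob k f' := by
  cases k with
  | zero => exact ll_congr h hf
  | succ k =>
    refine ⟨ll_congr h.1 hf, fun i => ?_⟩
    obtain ⟨g, hg, hs⟩ := h.2 i
    exact ⟨g, hg.congr hf Filter.EventuallyEq.rfl, hs⟩

theorem sob_ll4 {f : R4 → F} (h : Sob 1 f) : LL 4 f := by
  choose g hg hs using h.2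
  exact ll_four h.1 hs hg

theorem sob_ll12 {f : R4 → F} (h : Sob 2 f) : LL 12 f := by
  have h4 : LL 4 f := sob_ll4 (H306.Sob.mono (by norm_num) h)
  choose g hg hs using h.2
  exact ll_twelve (ll_mono h4 (by norm_num)) (fun i => ll_mono (sob_ll4 (hs i)) (by norm_num)) hg

theorem sob_ll8 {f : R4 → F} (h : Sob 2 f) : LL 8 f := ll_mono (sob_ll12 h) (by norm_num)

/-- **Morrey**: a function whose weak gradient is locally in `L⁸` has a continuous
representative, with a local bound. -/
theorem exists_cont : ∃ C : ℝ≥0, ∀ (f : R4 → F) (g : Fin 4 → R4 → F), LL 1 f →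
    (∀ i, LL 8 (g i)) → (∀ i, IsWD volume (e i) f (g i)) →
      ∃ f' : R4 → F, Continuous f' ∧ f =ᵐ[volume] f' ∧ ∀ K : Set R4, IsCompact K → ∀ x ∈ K,
        ‖f' x‖ₑ ≤ eLpNorm f 1 (volume.restrict (fat K)) +
          C * ∑ i, eLpNorm (g i) 8 (volume.restrict (fat K)) := by
  haveI : CompleteSpace F := FiniteDimensional.complete ℝ F
  obtain ⟨C, hC0, hC⟩ := bas.exists_opNorm_le (𝕜 := ℝ) (F := F)
  set C2 : ℝ≥0 := 2 * Real.toNNReal C with hC2
  have hC2' : (C2 : ℝ≥0∞) = 2 * ENNReal.ofReal C := by rw [hC2, ENNReal.coe_mul]; rfl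
  refine ⟨C2, fun f g hf hg h => ?_⟩
  have hfl : LocallyIntegrable f volume := ll_locallyIntegrable le_rfl hf
  have hgl : ∀ i, LocallyIntegrable (g i) volume := fun i =>
    ll_locallyIntegrable (by norm_num) (hg i)
  set u : ℕ → R4 → F := fun n => moll volume (stdBump n) f with hu
  set w : ℕ → Fin 4 → R4 → F := fun n i => moll volume (stdBump n) (g i) with hw
  have hus : ∀ n, ContDiff ℝ 1 (u n) := fun n => (moll_contDiff _ hfl).of_le (by simp)
  have huc : ∀ n, Continuous (u n) := fun n => (hus n).continuous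
  have hwc : ∀ n i, Continuous (w n i) := fun n i => (moll_contDiff _ (hgl i)).continuous
  have hb : ∀ i, IsWD volume (bas i) f (g i) := fun i => by rw [bas_apply]; exact h i
  have hud : ∀ n x i, fderiv ℝ (u n) x (bas i) = w n i x := fun n x i =>
    fderiv_moll _ (hb i) hfl x
  -- key estimate: a smooth function with gradient components `v i`
  have key : ∀ (U : R4 → F) (v : Fin 4 → R4 → F), ContDiff ℝ 1 U → (∀ i, Continuous (v i)) →
      (∀ x i, fderiv ℝ U x (bas i) = v i x) → ∀ (K : Set R4) (x : R4), x ∈ K →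
        ‖U x‖ₑ ≤ eLpNorm U 1 (volume.restrict (fat K)) +
          C2 * ∑ i, eLpNorm (v i) 8 (volume.restrict (fat K)) := by
    intro U v hU hv hUv K x hx
    refine (morrey_on hU hx).trans (add_le_add le_rfl ?_)
    have h3 : eLpNorm (fderiv ℝ U) 8 (volume.restrict (fat K)) ≤
        ENNReal.ofReal C * eLpNorm (fun x => ∑ i, ‖v i x‖) 8 (volume.restrict (fat K)) := by
      refine eLpNorm_le_mul_eLpNorm_of_ae_le_mul (Eventually.of_forall fun x => ?_) _
      refine (hC (M := ∑ i, ‖v i x‖) (Finset.sum_nonneg fun i _ => norm_nonneg _)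
        fun i => ?_).trans (mul_le_mul_of_nonneg_left (Real.le_norm_self _) hC0.le)
      rw [hUv]
      exact Finset.single_le_sum (f := fun i => ‖v i x‖) (fun i _ => norm_nonneg _)
        (Finset.mem_univ i)
    have h4 : eLpNorm (fun x => ∑ i, ‖v i x‖) 8 (volume.restrict (fat K)) ≤
        ∑ i, eLpNorm (v i) 8 (volume.restrict (fat K)) := by
      have h5 : (fun x => ∑ i, ‖v i x‖) = ∑ i, (fun x => ‖v i x‖) := by
        ext x; simp
      rw [h5]
      refine (eLpNorm_sum_le (fun i _ => (hv i).norm.aestronglyMeasurable)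
        (by norm_num)).trans (le_of_eq ?_)
      exact Finset.sum_congr rfl fun i _ => eLpNorm_norm _
    rw [hC2', mul_assoc]
    exact mul_le_mul_right (h3.trans (mul_le_mul_right h4 _)) _
  -- the errors
  set δ : Set R4 → ℕ → ℝ≥0∞ := fun K n => eLpNorm (u n - f) 1 (volume.restrict (fat K)) +
    C2 * ∑ i, eLpNorm (w n i - g i) 8 (volume.restrict (fat K)) with hδ
  have hδ0 : ∀ K : Set R4, IsCompact K → Tendsto (δ K) atTop (𝓝 0) := by
    intro K hK
    have t1 := tendsto_moll_locp (μ := (volume : Measure R4)) (p := 1) le_rfl (by norm_num)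
      (f := f) hf (isCompact_fat hK)
    have t2 : Tendsto (fun n => (C2 : ℝ≥0∞) * ∑ i, eLpNorm (w n i - g i) 8
        (volume.restrict (fat K))) atTop (𝓝 (C2 * ∑ _i : Fin 4, (0 : ℝ≥0∞))) := by
      refine ENNReal.Tendsto.const_mul (tendsto_finsetSum _ fun i _ => ?_)
        (Or.inr ENNReal.coe_ne_top)
      exact tendsto_moll_locp (μ := (volume : Measure R4)) (p := 8) (by norm_num) (by norm_num)
        (f := g i) (hg i) (isCompact_fat hK)
    have := t1.add t2
    simpa using this
  have hmf : ∀ (K : Set R4), IsCompact K → AEStronglyMeasurable f (volume.restrict (fat K)) :=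
    fun K hK => (hf _ (isCompact_fat hK)).1
  have hmg : ∀ (K : Set R4), IsCompact K → ∀ i,
      AEStronglyMeasurable (g i) (volume.restrict (fat K)) :=
    fun K hK i => (hg i _ (isCompact_fat hK)).1
  have hdiff : ∀ K : Set R4, IsCompact K → ∀ x ∈ K, ∀ m n, ‖u n x - u m x‖ₑ ≤ δ K n + δ K m := by
    intro K hK x hx m n
    have h1 := key (u n - u m) (fun i => w n i - w m i) ((hus n).sub (hus m))
      (fun i => (hwc n i).sub (hwc m i)) (fun x i => by
        have e1 : fderiv ℝ (u n - u m) x = fderiv ℝ (u n) x - fderiv ℝ (u m) x :=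
          fderiv_sub ((hus n).differentiable (by simp) x) ((hus m).differentiable (by simp) x)
        rw [e1]
        simp only [sub_apply, Pi.sub_apply, hud]) K x hx
    refine h1.trans ?_
    have e2 : eLpNorm (u n - u m) 1 (volume.restrict (fat K)) ≤
        eLpNorm (u n - f) 1 (volume.restrict (fat K)) +
          eLpNorm (u m - f) 1 (volume.restrict (fat K)) := by
      have : u n - u m = (u n - f) - (u m - f) := by abel
      rw [this]
      exact eLpNorm_sub_le ((huc n).aestronglyMeasurable.sub (hmf K hK))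
        ((huc m).aestronglyMeasurable.sub (hmf K hK)) le_rfl
    have e3 : ∑ i, eLpNorm (w n i - w m i) 8 (volume.restrict (fat K)) ≤
        ∑ i, eLpNorm (w n i - g i) 8 (volume.restrict (fat K)) +
          ∑ i, eLpNorm (w m i - g i) 8 (volume.restrict (fat K)) := by
      rw [← Finset.sum_add_distrib]
      refine Finset.sum_le_sum fun i _ => ?_
      have : w n i - w m i = (w n i - g i) - (w m i - g i) := by abel
      rw [this]
      exact eLpNorm_sub_le ((hwc n i).aestronglyMeasurable.sub (hmg K hK i))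
        ((hwc m i).aestronglyMeasurable.sub (hmg K hK i)) (by norm_num)
    calc _ ≤ (eLpNorm (u n - f) 1 (volume.restrict (fat K)) +
          eLpNorm (u m - f) 1 (volume.restrict (fat K))) + C2 *
          (∑ i, eLpNorm (w n i - g i) 8 (volume.restrict (fat K)) +
          ∑ i, eLpNorm (w m i - g i) 8 (volume.restrict (fat K))) :=
          add_le_add e2 (mul_le_mul_right e3 _)
      _ = δ K n + δ K m := by simp only [hδ]; ring
  -- pointwise limit
  have hcau : ∀ x, CauchySeq fun n => u n x := by
    intro x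
    rw [EMetric.cauchySeq_iff]
    intro ε hε
    obtain ⟨η, hη0, hη⟩ := exists_between (ENNReal.half_pos hε.ne')
    have h1 := (hδ0 {x} isCompact_singleton).eventually (gt_mem_nhds hη0)
    obtain ⟨N, hN⟩ := eventually_atTop.1 h1
    refine ⟨N, fun m hm n hn => ?_⟩
    rw [edist_eq_enorm_sub]
    refine lt_of_le_of_lt (hdiff {x} isCompact_singleton x rfl n m) ?_
    calc δ {x} m + δ {x} n < η + η := ENNReal.add_lt_add (hN m hm) (hN n hn)
      _ ≤ ε / 2 + ε / 2 := add_le_add hη.le hη.le
      _ = ε := ENNReal.add_halves ε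
  choose f' hf' using fun x => cauchySeq_tendsto_of_complete (hcau x)
  have hlim : ∀ K : Set R4, IsCompact K → ∀ x ∈ K, ∀ n, ‖u n x - f' x‖ₑ ≤ δ K n := by
    intro K hK x hx n
    have t1 : Tendsto (fun m => ‖u n x - u m x‖ₑ) atTop (𝓝 ‖u n x - f' x‖ₑ) :=
      (continuous_enorm.tendsto _).comp (tendsto_const_nhds.sub (hf' x))
    have t2 : Tendsto (fun m => δ K n + δ K m) atTop (𝓝 (δ K n + 0)) :=
      tendsto_const_nhds.add (hδ0 K hK)
    rw [add_zero] at t2
    exact le_of_tendsto_of_tendsto' t1 t2 fun m => hdiff K hK x hx m n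
  have hunif : TendstoLocallyUniformly u f' atTop := by
    rw [← tendstoLocallyUniformlyOn_univ,
      tendstoLocallyUniformlyOn_iff_forall_isCompact isOpen_univ]
    intro K _ hK
    rw [EMetric.tendstoUniformlyOn_iff]
    intro ε hε
    have h1 := (hδ0 K hK).eventually (gt_mem_nhds hε)
    filter_upwards [h1] with n hn x hx
    rw [edist_comm, edist_eq_enorm_sub]
    exact (hlim K hK x hx n).trans_lt hn
  refine ⟨f', hunif.continuous (Frequently.of_forall huc), ?_, ?_⟩
  · -- almost everywhere equality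
    have h1 : ∀ R : ℕ, ∀ᵐ x ∂(volume.restrict (Metric.closedBall (0 : R4) R)), f x = f' x := by
      intro R
      have hK : IsCompact (Metric.closedBall (0 : R4) R) := isCompact_closedBall _ _
      have t1 := tendsto_moll_locp (μ := (volume : Measure R4)) (p := 1) le_rfl (by norm_num)
        (f := f) hf hK
      have hm : TendstoInMeasure (volume.restrict (Metric.closedBall (0 : R4) R)) u atTop f :=
        tendstoInMeasure_of_tendsto_eLpNorm one_ne_zero
          (fun n => (huc n).aestronglyMeasurable) (hf _ hK).1 t1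
      obtain ⟨ns, hns, hae⟩ := hm.exists_seq_tendsto_ae
      filter_upwards [hae] with x hx
      exact tendsto_nhds_unique hx ((hf' x).comp hns.tendsto_atTop)
    have h2 := (ae_restrict_iUnion_iff (fun R : ℕ => Metric.closedBall (0 : R4) (R : ℝ)) _).2 h1
    rwa [Metric.iUnion_closedBall_nat, Measure.restrict_univ] at h2
  · intro K hK x hx
    set A := eLpNorm f 1 (volume.restrict (fat K)) +
      C2 * ∑ i, eLpNorm (g i) 8 (volume.restrict (fat K)) with hA
    have t1 : Tendsto (fun n => ‖u n x‖ₑ) atTop (𝓝 ‖f' x‖ₑ) :=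
      (continuous_enorm.tendsto _).comp (hf' x)
    have t2 : Tendsto (fun n => A + δ K n) atTop (𝓝 (A + 0)) :=
      tendsto_const_nhds.add (hδ0 K hK)
    rw [add_zero] at t2
    refine le_of_tendsto_of_tendsto' t1 t2 fun n => ?_
    refine (key (u n) (w n) (hus n) (hwc n) (hud n) K x hx).trans ?_
    have e2 : eLpNorm (u n) 1 (volume.restrict (fat K)) ≤
        eLpNorm f 1 (volume.restrict (fat K)) +
          eLpNorm (u n - f) 1 (volume.restrict (fat K)) := by
      have : u n = f + (u n - f) := by abel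
      calc _ = eLpNorm (f + (u n - f)) 1 (volume.restrict (fat K)) := by rw [← this]
        _ ≤ _ := eLpNorm_add_le (hmf K hK)
          ((huc n).aestronglyMeasurable.sub (hmf K hK)) le_rfl
    have e3 : ∑ i, eLpNorm (w n i) 8 (volume.restrict (fat K)) ≤
        ∑ i, eLpNorm (g i) 8 (volume.restrict (fat K)) +
          ∑ i, eLpNorm (w n i - g i) 8 (volume.restrict (fat K)) := by
      rw [← Finset.sum_add_distrib]
      refine Finset.sum_le_sum fun i _ => ?_
      have : w n i = g i + (w n i - g i) := by abel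
      calc _ = eLpNorm (g i + (w n i - g i)) 8 (volume.restrict (fat K)) := by rw [← this]
        _ ≤ _ := eLpNorm_add_le (hmg K hK i)
          ((hwc n i).aestronglyMeasurable.sub (hmg K hK i)) (by norm_num)
    calc _ ≤ (eLpNorm f 1 (volume.restrict (fat K)) +
          eLpNorm (u n - f) 1 (volume.restrict (fat K))) + C2 *
          (∑ i, eLpNorm (g i) 8 (volume.restrict (fat K)) +
          ∑ i, eLpNorm (w n i - g i) 8 (volume.restrict (fat K))) :=
          add_le_add e2 (mul_le_mul_right e3 _)
      _ = A + δ K n := by simp only [hδ, hA]; ring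

/-- a continuous function with continuous weak partial derivatives is `C¹` -/
theorem hasFDerivAt_of_isWD {f : R4 → F} {g : Fin 4 → R4 → F} (hf : Continuous f)
    (hg : ∀ i, Continuous (g i)) (h : ∀ i, IsWD volume (e i) f (g i)) (x : R4) :
    HasFDerivAt f (∑ i, (ContinuousLinearMap.proj i : R4 →L[ℝ] ℝ).smulRight (g i x)) x := by
  haveI : CompleteSpace F := FiniteDimensional.complete ℝ F
  have hfl : LocallyIntegrable f volume := hf.locallyIntegrable
  set u : ℕ → R4 → F := fun n => moll volume (stdBump n) f with hu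
  set w : ℕ → Fin 4 → R4 → F := fun n i => moll volume (stdBump n) (g i) with hw
  have hus : ∀ n, ContDiff ℝ 1 (u n) := fun n => (moll_contDiff _ hfl).of_le (by simp)
  have hud : ∀ n x i, fderiv ℝ (u n) x (e i) = w n i x := fun n x i =>
    fderiv_moll _ (h i) hfl x
  have hd : ∀ n x, fderiv ℝ (u n) x =
      ∑ i, (ContinuousLinearMap.proj i : R4 →L[ℝ] ℝ).smulRight (w n i x) := by
    intro n x
    ext v
    have hv : v = ∑ i, v i • e i := by
      ext j
      simp [e, Finset.sum_apply, Pi.single_apply]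
    conv_lhs => rw [hv]
    rw [map_sum]
    simp only [map_smul, hud, sum_apply, ContinuousLinearMap.smulRight_apply,
      ContinuousLinearMap.proj_apply]
  have hun : TendstoLocallyUniformly u f atTop := moll_tendstoLocally hf
  have hwn : ∀ i, TendstoLocallyUniformly (fun n => w n i) (g i) atTop := fun i =>
    moll_tendstoLocally (hg i)
  have hder : TendstoLocallyUniformlyOn (fun n x => fderiv ℝ (u n) x)
      (fun x => ∑ i, (ContinuousLinearMap.proj i : R4 →L[ℝ] ℝ).smulRight (g i x)) atTop univ := by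
    rw [Metric.tendstoLocallyUniformlyOn_iff]
    intro ε hε x _
    have h1 : ∀ i : Fin 4, ∃ t ∈ 𝓝 x, ∀ᶠ n in atTop, ∀ y ∈ t, dist (g i y) (w n i y) < ε / 8 :=
      fun i => (Metric.tendstoLocallyUniformly_iff.1 (hwn i)) (ε / 8) (by positivity) x
    choose t ht htn using h1
    refine ⟨⋂ i, t i, ?_, ?_⟩
    · rw [nhdsWithin_univ]
      exact (Filter.iInter_mem).2 ht
    · have h2 : ∀ᶠ n in atTop, ∀ i, ∀ y ∈ t i, dist (g i y) (w n i y) < ε / 8 :=
        eventually_all.2 htn
      filter_upwards [h2] with n hn y hy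
      rw [hd, dist_eq_norm, ← Finset.sum_sub_distrib]
      refine lt_of_le_of_lt (norm_sum_le _ _) ?_
      have h3 : ∀ i : Fin 4, ‖(ContinuousLinearMap.proj i : R4 →L[ℝ] ℝ).smulRight (g i y) -
          (ContinuousLinearMap.proj i : R4 →L[ℝ] ℝ).smulRight (w n i y)‖ ≤ ε / 8 := by
        intro i
        have e1 : (ContinuousLinearMap.proj i : R4 →L[ℝ] ℝ).smulRight (g i y) -
            (ContinuousLinearMap.proj i : R4 →L[ℝ] ℝ).smulRight (w n i y) =
            (ContinuousLinearMap.proj i : R4 →L[ℝ] ℝ).smulRight (g i y - w n i y) := by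
          ext v
          simp [smul_sub]
        rw [e1]
        refine (ContinuousLinearMap.opNorm_le_bound _ (norm_nonneg (g i y - w n i y))
          fun v => ?_).trans ?_
        · simp only [ContinuousLinearMap.smulRight_apply, ContinuousLinearMap.proj_apply,
            norm_smul]
          rw [mul_comm]
          exact mul_le_mul_of_nonneg_left (norm_le_pi_norm v i) (norm_nonneg _)
        · have := hn i y (mem_iInter.1 hy i)
          rw [dist_eq_norm] at this
          exact this.le
      calc _ ≤ ∑ _i : Fin 4, ε / 8 := Finset.sum_le_sum fun i _ => h3 i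
        _ < ε := by
          simp only [Finset.sum_const, Finset.card_univ, Fintype.card_fin, nsmul_eq_mul]
          push_cast
          linarith
  exact hasFDerivAt_of_tendstoLocallyUniformlyOn isOpen_univ hder
    (fun n x _ => ((hus n).differentiable (by simp) x).hasFDerivAt)
    (fun x _ => (tendstoLocallyUniformlyOn_univ.2 hun).tendsto_at (mem_univ x)) (mem_univ x)

theorem ll_of_continuous {f : R4 → F} (hf : Continuous f) (p : ℝ≥0∞) : LL p f := by
  intro K hK
  haveI : IsFiniteMeasure ((volume : Measure R4).restrict K) := ⟨by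
    rw [Measure.restrict_apply_univ]; exact hK.measure_lt_top⟩
  obtain ⟨C, hC⟩ := hK.exists_bound_of_continuousOn hf.continuousOn
  refine MemLp.of_bound hf.aestronglyMeasurable C ?_
  filter_upwards [ae_restrict_mem hK.isClosed.measurableSet] with x hx
  exact hC x hx

/-- `H³_loc(ℝ⁴) ⊂ C⁰` -/
theorem sob_exists_continuous {f : R4 → F} (h : Sob 3 f) :
    ∃ f' : R4 → F, Continuous f' ∧ f =ᵐ[volume] f' := by
  choose g hg hs using h.2
  obtain ⟨C, hC⟩ := exists_cont (F := F)
  obtain ⟨f', h1, h2, -⟩ := hC f g (ll_mono h.1 (by norm_num)) (fun i => sob_ll8 (hs i)) hg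
  exact ⟨f', h1, h2⟩

/-- `H³_loc(ℝ⁴) ⊂ L^∞_loc` -/
theorem sob_ll_top {f : R4 → F} (h : Sob 3 f) (p : ℝ≥0∞) : LL p f := by
  obtain ⟨f', h1, h2⟩ := sob_exists_continuous h
  exact ll_congr (ll_of_continuous h1 p) h2.symm

/-- `H^{n+3}_loc(ℝ⁴) ⊂ Cⁿ` for continuous functions -/
theorem sob_contDiff {n : ℕ} {f : R4 → F} (h : Sob (n + 3) f) (hf : Continuous f) :
    ContDiff ℝ n f := by
  induction n generalizing f with
  | zero => exact contDiff_zero.2 hf
  | succ n ih =>
    have h' : Sob ((n + 3) + 1) f := by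
      have : n + 1 + 3 = n + 3 + 1 := by ring
      rwa [this] at h
    choose g hg hs using h'.2
    have h3 : ∀ i, ∃ g' : R4 → F, Continuous g' ∧ g i =ᵐ[volume] g' := fun i =>
      sob_exists_continuous (H306.Sob.mono (by omega : 3 ≤ n + 3) (hs i))
    choose g' hc' he' using h3
    have hwd : ∀ i, IsWD volume (e i) f (g' i) := fun i =>
      (hg i).congr Filter.EventuallyEq.rfl (he' i)
    have hder := hasFDerivAt_of_isWD hf hc' hwd
    have hcd : ∀ i, ContDiff ℝ n (g' i) := fun i => ih (sob_congr (hs i) (he' i)) (hc' i)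
    have : ((n + 1 : ℕ) : WithTop ℕ∞) = (n : WithTop ℕ∞) + 1 := by push_cast; rfl
    rw [this, contDiff_succ_iff_hasFDerivAt]
    refine ⟨fun x => ∑ i, (ContinuousLinearMap.proj i : R4 →L[ℝ] ℝ).smulRight (g' i x), ?_, hder⟩
    refine ContDiff.sum fun i _ => ?_
    exact ((ContinuousLinearMap.smulRightL ℝ R4 F
      (ContinuousLinearMap.proj i : R4 →L[ℝ] ℝ)).contDiff).comp (hcd i)

/-- `⋂ H^k_loc(ℝ⁴) ⊂ C^∞` -/
theorem sob_contDiff_infty {f : R4 → F} (h : ∀ k, Sob k f) (hf : Continuous f) :
    ContDiff ℝ ∞ f :=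
  contDiff_infty.2 fun n => sob_contDiff (h (n + 3)) hf

/-- smooth representative -/
theorem sob_exists_smooth {f : R4 → F} (h : ∀ k, Sob k f) :
    ∃ f' : R4 → F, ContDiff ℝ ∞ f' ∧ f =ᵐ[volume] f' := by
  obtain ⟨f', h1, h2⟩ := sob_exists_continuous (h 3)
  exact ⟨f', sob_contDiff_infty (fun k => sob_congr (h k) h2) h1, h2⟩

end

end Vale.Agent.P247.H399.Emb
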