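import Vale.Agent.P363.R.Sob.LocApprox
import Vale.Agent.P363.R.Sob.S14
import Mathlib.Analysis.FunctionalSpaces.SobolevInequality

/-!
# Gagliardo-Nirenberg-Sobolev inequality for weakly differentiable functions

Mathlib proves the inequality for `C¹` functions with compact support; here it is extended to
functions with compact support whose directional weak derivatives (along a basis) are in `L^p`,
and to a local statement.
-/

namespace Vale.Agent.P247.H399.Emb

open MeasureTheory Filter Topology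
open Vale.Agent.P363.R.Sob
open scoped ContDiff ENNReal NNReal

set_option linter.unusedSectionVars false
set_option linter.style.haveILetI false

noncomputable section

variable {E : Type*} [NormedAddCommGroup E] [NormedSpace ℝ E] [FiniteDimensional ℝ E]
  [MeasurableSpace E] [BorelSpace E]
variable {F : Type*} [NormedAddCommGroup F] [NormedSpace ℝ F] [FiniteDimensional ℝ F]
variable {μ : Measure E} [μ.IsAddHaarMeasure] {ι : Type*} [Fintype ι]

/-- the gradient of a mollification is controlled by the mollified partial derivatives -/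
theorem exists_bound_fderiv_moll (b : Module.Basis ι ℝ E) : ∃ C : ℝ, 0 ≤ C ∧
    ∀ (ρ : ContDiffBump (0 : E)) (f : E → F) (g : ι → E → F), LocallyIntegrable f μ →
      (∀ i, IsWD μ (b i) f (g i)) →
      ∀ x, ‖fderiv ℝ (moll μ ρ f) x‖ ≤ C * ∑ i, ‖moll μ ρ (g i) x‖ := by
  haveI : CompleteSpace F := FiniteDimensional.complete ℝ F
  obtain ⟨C, hC0, hC⟩ := b.exists_opNorm_le (𝕜 := ℝ) (F := F)
  refine ⟨C, hC0.le, fun ρ f g hf h x => ?_⟩
  refine hC (Finset.sum_nonneg fun i _ => norm_nonneg _) fun i => ?_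
  rw [fderiv_moll ρ (h i) hf x]
  exact Finset.single_le_sum (f := fun i => ‖moll μ ρ (g i) x‖) (fun i _ => norm_nonneg _)
    (Finset.mem_univ i)

/-- **GNS** for compactly supported functions with `L^p` weak gradient. -/
theorem gns (b : Module.Basis ι ℝ E) {p p' : ℝ≥0} (hp : 1 ≤ p) (hn : 0 < Module.finrank ℝ E)
    (hp' : (p' : ℝ)⁻¹ = (p : ℝ)⁻¹ - (Module.finrank ℝ E : ℝ)⁻¹) :
    ∃ C : ℝ≥0, ∀ (f : E → F) (g : ι → E → F), LocallyIntegrable f μ → HasCompactSupport f →
      (∀ i, MemLp (g i) p μ) → (∀ i, IsWD μ (b i) f (g i)) →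
      MemLp f p' μ ∧ eLpNorm f p' μ ≤ C * ∑ i, eLpNorm (g i) p μ := by
  haveI : CompleteSpace F := FiniteDimensional.complete ℝ F
  obtain ⟨C, hC0, hC⟩ := exists_bound_fderiv_moll (F := F) (μ := μ) b
  haveI : Fact ((1 : ℝ≥0∞) ≤ (p : ℝ≥0∞)) := ⟨by exact_mod_cast hp⟩
  haveI : Fact ((1 : ℝ≥0∞) ≤ 1) := ⟨le_rfl⟩
  set K : ℝ≥0 := SNormLESNormFDerivOfEqConst F μ p * Real.toNNReal C with hK
  refine ⟨K, fun f g hf hc hg h => ?_⟩
  have hp1 : (1 : ℝ≥0∞) ≤ (p : ℝ≥0∞) := by exact_mod_cast hp
  have hfi : Integrable f μ := (integrableOn_iff_integrable_of_support_subset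
    (subset_tsupport f)).1 (hf.integrableOn_isCompact hc)
  have hgl : ∀ i, LocallyIntegrable (g i) μ := fun i => (hg i).locallyIntegrable hp1
  have hfm : AEStronglyMeasurable f μ := hfi.1
  -- bound for the mollifications
  have hb : ∀ n, eLpNorm (moll μ (stdBump n) f) p' μ ≤
      K * ∑ i, (eLpNorm (moll μ (stdBump n) (g i) - g i) p μ + eLpNorm (g i) p μ) := by
    intro n
    have hsm := moll_contDiff (μ := μ) (stdBump n) hf
    have h1 := eLpNorm_le_eLpNorm_fderiv_of_eq (F := F) μ (u := moll μ (stdBump n) f)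
      (hsm.of_le (by simp)) (moll_hasCompactSupport _ hc) hp hn hp'
    refine h1.trans ?_
    have h2 : eLpNorm (fderiv ℝ (moll μ (stdBump n) f)) p μ ≤
        ENNReal.ofReal C * ∑ i, eLpNorm (moll μ (stdBump n) (g i)) p μ := by
      have h3 : eLpNorm (fderiv ℝ (moll μ (stdBump n) f)) p μ ≤
          ENNReal.ofReal C * eLpNorm (fun x => ∑ i, ‖moll μ (stdBump n) (g i) x‖) p μ := by
        refine eLpNorm_le_mul_eLpNorm_of_ae_le_mul (Eventually.of_forall fun x => ?_) _
        refine (hC _ f g hf h x).trans (mul_le_mul_of_nonneg_left ?_ hC0)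
        exact Real.le_norm_self _
      refine h3.trans (mul_le_mul_right ?_ _)
      have h4 : (fun x => ∑ i, ‖moll μ (stdBump n) (g i) x‖) =
          ∑ i, (fun x => ‖moll μ (stdBump n) (g i) x‖) := by
        ext x; simp
      rw [h4]
      refine (eLpNorm_sum_le (fun i _ => ?_) hp1).trans (le_of_eq ?_)
      · exact (moll_contDiff (μ := μ) (stdBump n) (hgl i)).continuous.norm.aestronglyMeasurable
      · exact Finset.sum_congr rfl fun i _ => eLpNorm_norm _
    refine (mul_le_mul_right h2 _).trans ?_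
    rw [← mul_assoc]
    have h5 : (SNormLESNormFDerivOfEqConst F μ p : ℝ≥0∞) * ENNReal.ofReal C = (K : ℝ≥0∞) := by
      rw [hK, ENNReal.coe_mul]; rfl
    rw [h5]
    refine mul_le_mul_right (Finset.sum_le_sum fun i _ => ?_) _
    have h6 : moll μ (stdBump n) (g i) = (moll μ (stdBump n) (g i) - g i) + g i := by
      simp
    calc eLpNorm (moll μ (stdBump n) (g i)) p μ
        = eLpNorm ((moll μ (stdBump n) (g i) - g i) + g i) p μ := by rw [← h6]
      _ ≤ _ := eLpNorm_add_le
          (((moll_contDiff (μ := μ) (stdBump n) (hgl i)).continuous.aestronglyMeasurable).sub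
            (hg i).1) (hg i).1 hp1
  -- limit of the bounds
  have hlim : Tendsto (fun n => (K : ℝ≥0∞) *
      ∑ i, (eLpNorm (moll μ (stdBump n) (g i) - g i) p μ + eLpNorm (g i) p μ)) atTop
      (𝓝 (K * ∑ i, eLpNorm (g i) p μ)) := by
    refine ENNReal.Tendsto.const_mul ?_ (Or.inr ENNReal.coe_ne_top)
    refine tendsto_finsetSum _ fun i _ => ?_
    have := (tendsto_moll_std (μ := μ) (p := (p : ℝ≥0∞)) ENNReal.coe_ne_top (hg i)).add_const
      (eLpNorm (g i) p μ)
    rwa [zero_add] at this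
  -- almost everywhere convergent subsequence
  have t1 := tendsto_moll_std (μ := μ) (p := 1) (by norm_num) (memLp_one_iff_integrable.2 hfi)
  have hm : TendstoInMeasure μ (fun n => moll μ (stdBump n) f) atTop f :=
    tendstoInMeasure_of_tendsto_eLpNorm one_ne_zero
      (fun n => (moll_contDiff _ hf).continuous.aestronglyMeasurable) hfm t1
  obtain ⟨ns, hns, hae⟩ := hm.exists_seq_tendsto_ae
  have hle : eLpNorm f p' μ ≤ K * ∑ i, eLpNorm (g i) p μ := by
    have h7 := Lp.eLpNorm_lim_le_liminf_eLpNorm (p := (p' : ℝ≥0∞)) (μ := μ)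
      (f := fun n => moll μ (stdBump (ns n)) f)
      (fun n => (moll_contDiff _ hf).continuous.aestronglyMeasurable) f hae
    refine h7.trans ?_
    have h8 := (hlim.comp hns.tendsto_atTop).liminf_eq
    rw [← h8]
    exact liminf_le_liminf (Eventually.of_forall fun n => hb (ns n))
  refine ⟨⟨hfm, hle.trans_lt ?_⟩, hle⟩
  exact ENNReal.mul_lt_top ENNReal.coe_lt_top (ENNReal.sum_lt_top.2 fun i _ => (hg i).2)

/-- local `L^p` -/
def LocLp (μ : Measure E) (p : ℝ≥0∞) (f : E → F) : Prop :=
  ∀ K : Set E, IsCompact K → MemLp f p (μ.restrict K)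

theorem LocLp.mono {f : E → F} {p q : ℝ≥0∞}
    (h : LocLp μ q f) (hpq : p ≤ q) : LocLp μ p f := by
  intro K hK
  haveI : IsFiniteMeasure (μ.restrict K) := ⟨by
    rw [Measure.restrict_apply_univ]; exact hK.measure_lt_top⟩
  exact (h K hK).mono_exponent hpq

theorem LocLp.locallyIntegrable {f : E → F} {p : ℝ≥0∞}
    (hp : 1 ≤ p) (h : LocLp μ p f) : LocallyIntegrable f μ := by
  haveI := FiniteDimensional.proper ℝ E
  rw [locallyIntegrable_iff]
  intro K hK
  haveI : IsFiniteMeasure (μ.restrict K) := ⟨by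
    rw [Measure.restrict_apply_univ]; exact hK.measure_lt_top⟩
  exact (h K hK).integrable hp

/-- a function which is locally `L^p`, times a continuous function with compact support -/
theorem LocLp.smul_memLp {f : E → F} {p : ℝ≥0∞} (h : LocLp μ p f) {χ : E → ℝ}
    (hχ : Continuous χ) (hc : HasCompactSupport χ) : MemLp (fun x => χ x • f x) p μ := by
  obtain ⟨C, hC⟩ := hc.exists_bound_of_continuous hχ
  have h0 : MemLp (fun x => χ x • f x) p (μ.restrict (tsupport χ)) := by
    refine MemLp.of_le_mul (c := C) (h _ hc.isCompact) ?_ (Eventually.of_forall fun x => ?_)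
    · exact hχ.aestronglyMeasurable.smul (h _ hc.isCompact).1
    · rw [norm_smul]
      exact mul_le_mul_of_nonneg_right (hC x) (norm_nonneg _)
  have h1 : (fun x => χ x • f x) = (tsupport χ).indicator (fun x => χ x • f x) := by
    ext x
    by_cases hx : x ∈ tsupport χ
    · rw [Set.indicator_of_mem hx]
    · rw [Set.indicator_of_notMem hx, image_eq_zero_of_notMem_tsupport hx, zero_smul]
  rw [h1]
  exact (memLp_indicator_iff_restrict hc.isCompact.isClosed.measurableSet).2 h0

/-- the localised weak derivative -/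
theorem cut_isWD {v : E} {f g : E → F} {χ : E → ℝ} (h : IsWD μ v f g) (hχ : ContDiff ℝ ∞ χ)
    (hf : LocallyIntegrable f μ) (hg : LocallyIntegrable g μ) :
    IsWD μ v (fun x => χ x • f x) (fun x => (fderiv ℝ χ x v) • f x + χ x • g x) := by
  haveI : CompleteSpace F := FiniteDimensional.complete ℝ F
  exact h.smooth_smul hχ hf hg

/-- **local GNS**: `W^{1,p}_loc ⊂ L^{p'}_loc`. -/
theorem gns_loc (b : Module.Basis ι ℝ E) {p p' : ℝ≥0} (hp : 1 ≤ p)
    (hn : 0 < Module.finrank ℝ E)
    (hp' : (p' : ℝ)⁻¹ = (p : ℝ)⁻¹ - (Module.finrank ℝ E : ℝ)⁻¹) {f : E → F} {g : ι → E → F}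
    (hf : LocLp μ p f) (hg : ∀ i, LocLp μ p (g i)) (h : ∀ i, IsWD μ (b i) f (g i)) :
    LocLp μ p' f := by
  intro K hK
  have hp1 : (1 : ℝ≥0∞) ≤ (p : ℝ≥0∞) := by exact_mod_cast hp
  obtain ⟨χ, h1, h2, -, h4, -⟩ := exists_cutoff hK isOpen_univ (Set.subset_univ K)
  obtain ⟨C, hC⟩ := gns (F := F) (μ := μ) b hp hn hp'
  have hfl := hf.locallyIntegrable hp1
  have hgl : ∀ i, LocallyIntegrable (g i) μ := fun i => (hg i).locallyIntegrable hp1
  have h5 := (hC (fun x => χ x • f x) (fun i x => (fderiv ℝ χ x (b i)) • f x + χ x • g i x)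
    ((hf.smul_memLp h1.continuous h2).locallyIntegrable hp1) (h2.smul_right) (fun i => ?_) fun i =>
      cut_isWD (h i) h1 hfl (hgl i)).1
  · refine (h5.restrict K).ae_eq ?_
    filter_upwards [ae_restrict_mem hK.isClosed.measurableSet] with x hx
    have : χ x = 1 := (h4.filter_mono (nhds_le_nhdsSet hx)).self_of_nhds
    rw [this, one_smul]
  · refine ((hf.smul_memLp (χ := fun x => fderiv ℝ χ x (b i)) ?_ ?_).add
      ((hg i).smul_memLp h1.continuous h2))
    · exact (h1.continuous_fderiv (by simp)).clm_apply continuous_const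
    · exact h2.fderiv_apply (𝕜 := ℝ) (b i)

end

end Vale.Agent.P247.H399.Emb
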