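import Vale.Agent.P247.H399.GNS
import Vale.Agent.P247.H74.Defs

/-!
# Morrey's inequality on unit cubes of `ℝ⁴` (exponent `8`) and continuous representatives
-/

namespace Vale.Agent.P247.H399.Emb

open MeasureTheory Filter Topology Set
open Vale.Agent.P363.R.Sob
open Vale.Agent.P247.H74 (R4 e)
open scoped ContDiff ENNReal NNReal Pointwise

set_option linter.unusedSectionVars false
set_option linter.style.haveILetI false

noncomputable section

variable {F : Type*} [NormedAddCommGroup F] [NormedSpace ℝ F]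

theorem ftc_bound [CompleteSpace F] {u : R4 → F} (hu : ContDiff ℝ 1 u) (x y : R4)
    (hy : ‖y‖ ≤ 1) :
    ‖u x‖ₑ ≤ ‖u (x + y)‖ₑ + ∫⁻ t in Ioc (0 : ℝ) 1, ‖fderiv ℝ u (x + t • y)‖ₑ := by
  have hc : Continuous fun t : ℝ => fderiv ℝ u (x + t • y) y := by
    have h1 : Continuous (fderiv ℝ u) := hu.continuous_fderiv (by simp)
    exact (h1.comp (by fun_prop)).clm_apply continuous_const
  have h : ∫ t in (0 : ℝ)..1, fderiv ℝ u (x + t • y) y = u (x + y) - u x := by
    have hd : ∀ t ∈ uIcc (0 : ℝ) 1, HasDerivAt (fun t : ℝ => u (x + t • y))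
        (fderiv ℝ u (x + t • y) y) t := by
      intro t _
      have h2 : HasFDerivAt u (fderiv ℝ u (x + t • y)) (x + t • y) :=
        (hu.differentiable (by simp) _).hasFDerivAt
      have h3 : HasDerivAt (fun t : ℝ => x + t • y) y t := by
        simpa using ((hasDerivAt_id t).smul_const y).const_add x
      exact h2.comp_hasDerivAt t h3
    rw [intervalIntegral.integral_eq_sub_of_hasDerivAt hd (hc.intervalIntegrable _ _)]
    simp
  have e1 : u x = u (x + y) - ∫ t in (0 : ℝ)..1, fderiv ℝ u (x + t • y) y := by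
    rw [h]; abel
  calc ‖u x‖ₑ = ‖u (x + y) - ∫ t in (0 : ℝ)..1, fderiv ℝ u (x + t • y) y‖ₑ := by rw [← e1]
    _ ≤ ‖u (x + y)‖ₑ + ‖∫ t in (0 : ℝ)..1, fderiv ℝ u (x + t • y) y‖ₑ := enorm_sub_le
    _ ≤ _ := by
        gcongr
        rw [intervalIntegral.integral_of_le zero_le_one]
        refine (enorm_integral_le_lintegral_enorm _).trans (lintegral_mono fun t => ?_)
        rw [← ofReal_norm, ← ofReal_norm]
        refine ENNReal.ofReal_le_ofReal ?_
        exact ((fderiv ℝ u (x + t • y)).le_opNorm y).trans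
          (mul_le_of_le_one_right (norm_nonneg _) hy)

/-- the unit cube based at `x` -/
def cub (x : R4) : Set R4 := Icc x (x + 1)

theorem mem_cub_zero {y : R4} (hy : y ∈ Icc (0 : R4) 1) : ‖y‖ ≤ 1 := by
  rw [pi_norm_le_iff_of_nonneg zero_le_one]
  intro i
  rw [Real.norm_eq_abs, abs_le]
  have h1 := hy.1 i
  have h2 := hy.2 i
  simp only [Pi.zero_apply, Pi.one_apply] at h1 h2
  constructor <;> linarith

theorem volume_cube : volume (Icc (0 : R4) 1) = 1 := by
  rw [Real.volume_Icc_pi]
  simp

theorem scale_bound (x : R4) {t : ℝ} (ht0 : 0 < t) (ht1 : t ≤ 1) (H : R4 → ℝ≥0∞) :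
    ∫⁻ y in Icc (0 : R4) 1, H (x + t • y) ≤ ENNReal.ofReal ((t ^ 4)⁻¹) * ∫⁻ z in cub x, H z := by
  have hm : MeasurableSet (cub x) := isClosed_Icc.measurableSet
  calc ∫⁻ y in Icc (0 : R4) 1, H (x + t • y)
      ≤ ∫⁻ y : R4, (cub x).indicator H (x + t • y) := by
        rw [← lintegral_indicator isClosed_Icc.measurableSet]
        refine lintegral_mono fun y => ?_
        by_cases hy : y ∈ Icc (0 : R4) 1
        · rw [indicator_of_mem hy, indicator_of_mem]
          constructor
          · intro i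
            have h1 := hy.1 i
            simp only [Pi.zero_apply] at h1
            simp only [Pi.add_apply, Pi.smul_apply, smul_eq_mul]
            nlinarith
          · intro i
            have h1 := hy.1 i
            have h2 := hy.2 i
            simp only [Pi.zero_apply, Pi.one_apply] at h1 h2
            simp only [Pi.add_apply, Pi.smul_apply, smul_eq_mul, Pi.one_apply]
            nlinarith
        · rw [indicator_of_notMem hy]; exact zero_le
    _ = ∫⁻ w : R4, (cub x).indicator H (x + w) ∂(Measure.map (t • ·) volume) := by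
        exact ((Homeomorph.smulOfNeZero t ht0.ne').measurableEmbedding.lintegral_map
          (fun w : R4 => (cub x).indicator H (x + w))).symm
    _ = ENNReal.ofReal ((t ^ 4)⁻¹) * ∫⁻ w : R4, (cub x).indicator H (x + w) := by
        rw [Measure.map_addHaar_smul _ ht0.ne', lintegral_smul_measure]
        simp only [Module.finrank_fintype_fun_eq_card, Fintype.card_fin, smul_eq_mul]
        rw [abs_of_pos (by positivity)]
    _ = ENNReal.ofReal ((t ^ 4)⁻¹) * ∫⁻ z in cub x, H z := by
        rw [lintegral_add_left_eq_self (μ := (volume : Measure R4))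
          (fun w => (cub x).indicator H w) x, lintegral_indicator hm]

theorem rpow_aux {t : ℝ} (ht0 : 0 < t) :
    ENNReal.ofReal ((t ^ 4)⁻¹) ^ (1 / (8 : ℝ≥0∞).toReal) = ENNReal.ofReal (t ^ (-(1 / 2) : ℝ)) := by
  rw [ENNReal.ofReal_rpow_of_pos (by positivity)]
  congr 1
  have : ((t ^ 4)⁻¹ : ℝ) = t ^ (-4 : ℝ) := by
    rw [Real.rpow_neg ht0.le]; norm_cast
  rw [this, ← Real.rpow_mul ht0.le]
  congr 1
  norm_num

theorem lintegral_rpow_half :
    ∫⁻ t in Ioc (0 : ℝ) 1, ENNReal.ofReal (t ^ (-(1 / 2) : ℝ)) = 2 := by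
  have hi : IntervalIntegrable (fun t : ℝ => t ^ (-(1 / 2) : ℝ)) volume 0 1 :=
    intervalIntegral.intervalIntegrable_rpow' (by norm_num)
  rw [← ofReal_integral_eq_lintegral_ofReal hi.1, ← intervalIntegral.integral_of_le zero_le_one,
    integral_rpow (Or.inl (by norm_num))]
  · norm_num
  · filter_upwards [ae_restrict_mem measurableSet_Ioc] with t ht
    exact Real.rpow_nonneg ht.1.le _

/-- **Morrey's inequality** on a unit cube -/
theorem morrey [CompleteSpace F] {u : R4 → F} (hu : ContDiff ℝ 1 u) (x : R4) :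
    ‖u x‖ₑ ≤ eLpNorm u 1 (volume.restrict (cub x)) +
      2 * eLpNorm (fderiv ℝ u) 8 (volume.restrict (cub x)) := by
  haveI hP : IsProbabilityMeasure ((volume : Measure R4).restrict (Icc (0 : R4) 1)) :=
    ⟨by rw [Measure.restrict_apply_univ, volume_cube]⟩
  have hcd : Continuous (fderiv ℝ u) := hu.continuous_fderiv (by simp)
  have h1 : ‖u x‖ₑ ≤ ∫⁻ y in Icc (0 : R4) 1, (‖u (x + y)‖ₑ +
      ∫⁻ t in Ioc (0 : ℝ) 1, ‖fderiv ℝ u (x + t • y)‖ₑ) := by
    calc ‖u x‖ₑ = ∫⁻ _ in Icc (0 : R4) 1, ‖u x‖ₑ := by simp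
      _ ≤ _ := setLIntegral_mono' isClosed_Icc.measurableSet fun y hy =>
          ftc_bound hu x y (mem_cub_zero hy)
  refine h1.trans ?_
  have hcu : Continuous fun y : R4 => ‖u (x + y)‖ₑ :=
    (hu.continuous.comp (continuous_const.add continuous_id)).enorm
  rw [lintegral_add_left hcu.measurable]
  refine add_le_add (le_of_eq ?_) ?_
  · rw [eLpNorm_one_eq_lintegral_enorm]
    have hmp := measurePreserving_add_left (volume : Measure R4) x
    have h2 := hmp.setLIntegral_comp_preimage_emb (MeasurableEquiv.addLeft x).measurableEmbedding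
      (fun z => ‖u z‖ₑ) (cub x)
    rw [← h2]
    congr 2
    ext y
    simp only [cub, mem_Icc, mem_preimage, le_add_iff_nonneg_right, add_le_add_iff_left]
  · rw [lintegral_lintegral_swap]
    · calc ∫⁻ t in Ioc (0 : ℝ) 1, ∫⁻ y in Icc (0 : R4) 1, ‖fderiv ℝ u (x + t • y)‖ₑ
          ≤ ∫⁻ t in Ioc (0 : ℝ) 1, ENNReal.ofReal (t ^ (-(1 / 2) : ℝ)) *
              eLpNorm (fderiv ℝ u) 8 (volume.restrict (cub x)) := by
            refine setLIntegral_mono' measurableSet_Ioc fun t ht => ?_
            have hcy : Continuous fun y : R4 => fderiv ℝ u (x + t • y) := hcd.comp (by fun_prop)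
            have h3 : ∫⁻ y in Icc (0 : R4) 1, ‖fderiv ℝ u (x + t • y)‖ₑ ≤
                eLpNorm (fun y => fderiv ℝ u (x + t • y)) 8
                  (volume.restrict (Icc (0 : R4) 1)) := by
              rw [← eLpNorm_one_eq_lintegral_enorm]
              exact eLpNorm_le_eLpNorm_of_exponent_le (by norm_num) hcy.aestronglyMeasurable
            refine h3.trans ?_
            rw [eLpNorm_eq_lintegral_rpow_enorm_toReal (by norm_num) (by norm_num),
              eLpNorm_eq_lintegral_rpow_enorm_toReal (by norm_num) (by norm_num),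
              ← rpow_aux ht.1, ← ENNReal.mul_rpow_of_nonneg _ _ (by positivity)]
            refine ENNReal.rpow_le_rpow ?_ (by positivity)
            exact scale_bound x ht.1 ht.2 fun z => ‖fderiv ℝ u z‖ₑ ^ (8 : ℝ≥0∞).toReal
        _ = _ := by
            rw [lintegral_mul_const _ (by fun_prop), lintegral_rpow_half]
    · have : Continuous fun p : R4 × ℝ => ‖fderiv ℝ u (x + p.2 • p.1)‖ₑ :=
        (hcd.comp (by fun_prop)).enorm
      exact this.measurable.aemeasurable

/-- the union of the unit cubes based at the points of `K` -/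
def fat (K : Set R4) : Set R4 := K + Icc (0 : R4) 1

theorem isCompact_fat {K : Set R4} (hK : IsCompact K) : IsCompact (fat K) :=
  hK.add isCompact_Icc

theorem cub_subset_fat {K : Set R4} {x : R4} (hx : x ∈ K) : cub x ⊆ fat K := by
  intro z hz
  refine ⟨x, hx, z - x, ⟨?_, ?_⟩, by simp⟩
  · intro i
    have := hz.1 i
    simp only [Pi.zero_apply, Pi.sub_apply]; linarith
  · intro i
    have := hz.2 i
    simp only [Pi.add_apply, Pi.one_apply] at this
    simp only [Pi.sub_apply, Pi.one_apply]; linarith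

theorem morrey_on [CompleteSpace F] {u : R4 → F} (hu : ContDiff ℝ 1 u) {K : Set R4} {x : R4}
    (hx : x ∈ K) : ‖u x‖ₑ ≤ eLpNorm u 1 (volume.restrict (fat K)) +
      2 * eLpNorm (fderiv ℝ u) 8 (volume.restrict (fat K)) := by
  have h := Measure.restrict_mono_set (volume : Measure R4) (cub_subset_fat hx)
  exact (morrey hu x).trans (add_le_add (eLpNorm_mono_measure _ h)
    (mul_le_mul_right (eLpNorm_mono_measure _ h) _))

end

end Vale.Agent.P247.H399.Emb
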