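import Vale.Agent.P247.H399.Emb
import Vale.Agent.P363.R.Sob.S06
import Vale.Agent.P363.R.Sob.Chain

/-!
# Products and compositions in local Sobolev classes on `ℝ⁴`
-/

namespace Vale.Agent.P247.H399.Emb

open MeasureTheory Filter Topology Set
open Vale.Agent.P363.R.Sob
open Vale.Agent.P247.H74 (R4 e)
open Vale.Agent.P247.H306 (LL Sob)
open scoped ContDiff ENNReal NNReal

set_option linter.unusedSectionVars false
set_option linter.style.haveILetI false

noncomputable section

variable {V W X : Type*} [NormedAddCommGroup V] [NormedSpace ℝ V] [FiniteDimensional ℝ V]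
  [NormedAddCommGroup W] [NormedSpace ℝ W] [FiniteDimensional ℝ W]
  [NormedAddCommGroup X] [NormedSpace ℝ X] [FiniteDimensional ℝ X]

theorem ll_bilin (b : V →L[ℝ] W →L[ℝ] X) {p q r : ℝ≥0∞} [ENNReal.HolderTriple p q r]
    {f : R4 → V} {g : R4 → W} (hf : LL p f) (hg : LL q g) : LL r fun x => b (f x) (g x) :=
  fun K hK => b.memLp_of_bilin r (hf K hK) (hg K hK)

theorem ll_bilin_44 (b : V →L[ℝ] W →L[ℝ] X) {f : R4 → V} {g : R4 → W} (hf : LL 4 f)
    (hg : LL 4 g) : LL 2 fun x => b (f x) (g x) := by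
  haveI : ENNReal.HolderTriple 4 4 2 := ⟨by
    rw [← ENNReal.toReal_eq_toReal_iff' (by simp) (by simp),
      ENNReal.toReal_add (by simp) (by simp)]
    simp only [ENNReal.toReal_inv, ENNReal.toReal_ofNat]
    norm_num⟩
  exact ll_bilin b hf hg

theorem ll_bilin_top2 (b : V →L[ℝ] W →L[ℝ] X) {f : R4 → V} {g : R4 → W} (hf : LL ⊤ f)
    (hg : LL 2 g) : LL 2 fun x => b (f x) (g x) := ll_bilin b hf hg

theorem ll_bilin_2top (b : V →L[ℝ] W →L[ℝ] X) {f : R4 → V} {g : R4 → W} (hf : LL 2 f)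
    (hg : LL ⊤ g) : LL 2 fun x => b (f x) (g x) := ll_bilin b hf hg

theorem ll_add {f g : R4 → V} {p : ℝ≥0∞} (hf : LL p f) (hg : LL p g) :
    LL p fun x => f x + g x := fun K hK => (hf K hK).add (hg K hK)

theorem sob_add {k : ℕ} {f g : R4 → V} (hf : Sob k f) (hg : Sob k g) :
    Sob k fun x => f x + g x := by
  induction k generalizing f g with
  | zero => exact ll_add hf hg
  | succ k ih =>
    refine ⟨ll_add hf.1 hg.1, fun i => ?_⟩
    obtain ⟨f', h1, h2⟩ := hf.2 i
    obtain ⟨g', h3, h4⟩ := hg.2 i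
    have L : ∀ {u : R4 → V}, LL 2 u → LocallyIntegrable u volume := fun hu =>
      ll_locallyIntegrable (by norm_num) hu
    exact ⟨fun x => f' x + g' x, h1.add h3 (L hf.1) (L h2.ll) (L hg.1) (L h4.ll), ih h2 h4⟩

/-- local product rule -/
theorem isWD_bilin (b : V →L[ℝ] W →L[ℝ] X) {v : R4} {f f' : R4 → V} {g g' : R4 → W}
    (hf : LL 2 f) (hf' : LL 2 f') (hg : LL 2 g) (hg' : LL 2 g')
    (Wf : IsWD volume v f f') (Wg : IsWD volume v g g') :
    IsWD volume v (fun x => b (f x) (g x)) (fun x => b (f' x) (g x) + b (f x) (g' x)) := by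
  haveI : CompleteSpace V := FiniteDimensional.complete ℝ V
  haveI : CompleteSpace W := FiniteDimensional.complete ℝ W
  haveI : CompleteSpace X := FiniteDimensional.complete ℝ X
  intro φ hφ
  obtain ⟨χ, h1, h2, -, h4, -⟩ := exists_cutoff (E := R4) hφ.2.isCompact isOpen_univ
    (Set.subset_univ _)
  have h5 : ∀ x ∈ tsupport φ, χ x = 1 ∧ fderiv ℝ χ x = 0 := by
    intro x hx
    have h6 : ∀ᶠ y in 𝓝 x, χ y = 1 := h4.filter_mono (nhds_le_nhdsSet hx)
    refine ⟨h6.self_of_nhds, ?_⟩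
    have h7 : χ =ᶠ[𝓝 x] fun _ => (1 : ℝ) := h6
    rw [h7.fderiv_eq]; simp
  have hd : Continuous fun x => fderiv ℝ χ x v :=
    (h1.continuous_fderiv (by simp)).clm_apply continuous_const
  have hdc : HasCompactSupport fun x => fderiv ℝ χ x v := h2.fderiv_apply (𝕜 := ℝ) v
  have Lf := ll_locallyIntegrable (by norm_num) hf
  have Lf' := ll_locallyIntegrable (by norm_num) hf'
  have Lg := ll_locallyIntegrable (by norm_num) hg
  have Lg' := ll_locallyIntegrable (by norm_num) hg'
  have key := IsWD.bilin (μ := (volume : Measure R4)) b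
    (LocLp.smul_memLp (μ := (volume : Measure R4)) hf h1.continuous h2)
    ((LocLp.smul_memLp (μ := (volume : Measure R4)) hf hd hdc).add
      (LocLp.smul_memLp (μ := (volume : Measure R4)) hf' h1.continuous h2))
    (LocLp.smul_memLp (μ := (volume : Measure R4)) hg h1.continuous h2)
    ((LocLp.smul_memLp (μ := (volume : Measure R4)) hg hd hdc).add
      (LocLp.smul_memLp (μ := (volume : Measure R4)) hg' h1.continuous h2))
    (cut_isWD Wf h1 Lf Lf') (cut_isWD Wg h1 Lg Lg') φ hφ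
  have e1 : ∀ x, (fderiv ℝ φ x v) • b (χ x • f x) (χ x • g x) =
      (fderiv ℝ φ x v) • b (f x) (g x) := by
    intro x
    by_cases hx : x ∈ tsupport φ
    · rw [(h5 x hx).1, one_smul, one_smul]
    · have : fderiv ℝ φ x = 0 := by
        by_contra hne
        exact hx (support_fderiv_subset ℝ hne)
      rw [this]; simp
  have e2 : ∀ x, φ x • (b (((fun x => (fderiv ℝ χ x v) • f x) + fun x => χ x • f' x) x)
      (χ x • g x) + b (χ x • f x) (((fun x => (fderiv ℝ χ x v) • g x) +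
        fun x => χ x • g' x) x)) = φ x • (b (f' x) (g x) + b (f x) (g' x)) := by
    intro x
    by_cases hx : x ∈ tsupport φ
    · simp only [Pi.add_apply, (h5 x hx).1, (h5 x hx).2, one_smul, zero_apply, zero_smul,
        zero_add]
    · rw [image_eq_zero_of_notMem_tsupport hx, zero_smul, zero_smul]
  rw [integral_congr_ae (Eventually.of_forall e1),
    integral_congr_ae (Eventually.of_forall e2)] at key
  exact key

/-- products, general form -/
theorem sob_bilin (b : V →L[ℝ] W →L[ℝ] X) {i j m : ℕ} {f : R4 → V} {g : R4 → W}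
    (hf : Sob i f) (hg : Sob j g) (hi : m ≤ i) (hj : m ≤ j)
    (h : m + 3 ≤ i + j ∨ (m = 0 ∧ 1 ≤ i ∧ 1 ≤ j)) : Sob m fun x => b (f x) (g x) := by
  have base : ∀ {i j : ℕ} {f : R4 → V} {g : R4 → W}, Sob i f → Sob j g →
      (3 ≤ i + j ∨ (1 ≤ i ∧ 1 ≤ j)) → LL 2 fun x => b (f x) (g x) := by
    intro i j f g hf hg h
    rcases Nat.eq_zero_or_pos i with hi0 | hi0
    · subst hi0
      have h3 : 3 ≤ j := by omega
      exact ll_bilin_2top b hf.ll (sob_ll_top (H306.Sob.mono h3 hg) ⊤)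
    · rcases Nat.eq_zero_or_pos j with hj0 | hj0
      · subst hj0
        have h3 : 3 ≤ i := by omega
        exact ll_bilin_top2 b (sob_ll_top (H306.Sob.mono h3 hf) ⊤) hg.ll
      · exact ll_bilin_44 b (sob_ll4 (H306.Sob.mono hi0 hf)) (sob_ll4 (H306.Sob.mono hj0 hg))
  induction m generalizing i j f g with
  | zero => exact base hf hg (by omega)
  | succ m ih =>
    have h' : m + 1 + 3 ≤ i + j := by omega
    obtain ⟨i', rfl⟩ : ∃ i', i = i' + 1 := ⟨i - 1, by omega⟩
    obtain ⟨j', rfl⟩ : ∃ j', j = j' + 1 := ⟨j - 1, by omega⟩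
    refine ⟨base hf hg (by omega), fun l => ?_⟩
    obtain ⟨f', f1, f2⟩ := hf.2 l
    obtain ⟨g', g1, g2⟩ := hg.2 l
    refine ⟨_, isWD_bilin b hf.1 f2.ll hg.1 g2.ll f1 g1, sob_add ?_ ?_⟩
    · exact ih f2 hg (by omega) (by omega) (by omega)
    · exact ih hf g2 (by omega) (by omega) (by omega)

end

end Vale.Agent.P247.H399.Emb
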